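import Vale.Agent.N312.Cor

/-! One-tape time `t` is contained in space `t ^ (2 / 5) * (log t) ^ (1 / 5)`; the same for offline
machines and for one long tape with short auxiliary tapes; a time lower bound for linear space. -/

namespace Vale.Agent.Results.P312.A0Offline

open Vale.Agent.Lib.Space Vale.Agent.N312

theorem result :
    (∀ (A : Type) [Finite A] (t : ℕ → ℕ), (∀ n, n ≤ t n) →
      TIME1 A t ⊆ SPACE A fun n => (t n : ℝ) ^ (2 / 5 : ℝ) * Real.log (t n) ^ (1 / 5 : ℝ)) ∧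
    (∀ (A : Type) [Finite A] (t : ℕ → ℕ) (σ : ℕ → ℝ), (∀ n, n ≤ t n) → (∀ n, 0 ≤ σ n) →
      TIMEaux A t σ ⊆ SPACE A fun n =>
        (t n * (σ n + Real.log (t n))) ^ (2 / 5 : ℝ) * Real.log (t n) ^ (1 / 5 : ℝ) + σ n ^ 2) ∧
    (∀ γ : ℝ, 0 ≤ γ → γ < 1 / 4 → ∃ δ : ℝ, 0 < δ ∧ ∀ (A : Type) [Finite A] (t : ℕ → ℕ),
      (∀ n, n ≤ t n) →
        TIMEaux A t (fun n => (t n : ℝ) ^ γ) ⊆ SPACE A fun n => (t n : ℝ) ^ (1 / 2 - δ)) ∧
    ∃ L ∈ SPACE Bool fun n => (n : ℝ), ∀ t : ℕ → ℕ,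
      (fun n => (t n : ℝ) ^ 2 * Real.log (t n)) =o[Filter.atTop] (fun n => (n : ℝ) ^ 5) →
        L ∉ TIME1 Bool t :=
  ⟨fun A _ t ht => time1_subset A t ht, fun A _ t σ ht hσ => aux_subset A t σ ht hσ,
    aux_rpow, dL, dL_mem, dL_not_mem⟩

end Vale.Agent.Results.P312.A0Offline
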